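import Vale.Agent.P032.S5.H827.MBGeo

/-!
# P032: the switching set of an alternating point and its gaps

`Ty T z m b t` : `t` is a generic time, and `m ∈ T (pt z t)` iff `b`.  `Sg T z m` : the times at
which both types accumulate.  If `Sg` has no isolated points then every open interval which meets
it contains two gaps of each type.
-/

open Set Filter Topology Metric

noncomputable section

namespace Vale.Agent.P032.S5.H827

open Vale.Agent.P032.Six Vale.Agent.P032.S5.H767 Vale.Agent.P032.H89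

variable {U : Fin 6 → Set ℂ} {T : ℂ → Set (Fin 6)} {z : ℂ} {m : Fin 6}

/-- generic times of type `b` -/
def Ty (T : ℂ → Set (Fin 6)) (z : ℂ) (m : Fin 6) (b : Prop) : Set ℝ :=
  {t | Gen T z t ∧ (m ∈ T (pt z t) ↔ b)}

/-- the switching times -/
def Sg (T : ℂ → Set (Fin 6)) (z : ℂ) (m : Fin 6) : Set ℝ :=
  closure (Ty T z m True) ∩ closure (Ty T z m False)

theorem isClosed_Sg : IsClosed (Sg T z m) := isClosed_closure.inter isClosed_closure

theorem ty_or (h : Irr U T) (t : ℝ) : t ∈ closure (Ty T z m True) ∪ closure (Ty T z m False) := by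
  rw [← closure_union, _root_.mem_closure_iff]
  intro O hO htO
  obtain ⟨t', ht', hg⟩ := gen_exists h z hO ⟨t, htO⟩
  refine ⟨t', ht', ?_⟩
  by_cases hm : m ∈ T (pt z t')
  · exact Or.inl ⟨hg, by simp [hm]⟩
  · exact Or.inr ⟨hg, by simp [hm]⟩

theorem ty_congr {b b' : Prop} (hb : b ↔ b') : Ty T z m b = Ty T z m b' := by
  have : b = b' := propext hb
  rw [this]

theorem Sg_sub (b : Prop) : Sg T z m ⊆ closure (Ty T z m b) := by
  intro s hs
  by_cases hb : b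
  · rw [ty_congr (b := b) (b' := True) (by tauto)]; exact hs.1
  · rw [ty_congr (b := b) (b' := False) (by tauto)]; exact hs.2

theorem mem_Sg_iff (b : Prop) {s : ℝ} :
    s ∈ Sg T z m ↔ s ∈ closure (Ty T z m b) ∧ s ∈ closure (Ty T z m ¬ b) := by
  by_cases hb : b
  · rw [ty_congr (b := b) (b' := True) (by tauto), ty_congr (b := ¬ b) (b' := False) (by tauto)]
    exact Iff.rfl
  · rw [ty_congr (b := b) (b' := False) (by tauto), ty_congr (b := ¬ b) (b' := True) (by tauto)]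
    exact and_comm

/-- a generic time of type `b` is not a limit of the other type -/
theorem ty_notMem {b : Prop} {t : ℝ} (ht : t ∈ Ty T z m b) : t ∉ closure (Ty T z m ¬ b) := by
  intro hcon
  have h1 : ∀ᶠ v in 𝓝 t, T (pt z v) = T (pt z t) := by
    have := ht.1 0
    rwa [Int.cast_zero, add_zero] at this
  rw [mem_closure_iff_frequently] at hcon
  obtain ⟨v, hv, hv'⟩ := (hcon.and_eventually h1).exists
  have h2 := hv.2
  have h3 := ht.2
  rw [hv'] at h2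
  tauto

theorem ty_notMem_Sg {b : Prop} {t : ℝ} (ht : t ∈ Ty T z m b) : t ∉ Sg T z m := fun h =>
  ty_notMem ht ((mem_Sg_iff b).1 h).2

/-- `(l, r)` is a gap of type `b` -/
structure Gap (T : ℂ → Set (Fin 6)) (z : ℂ) (m : Fin 6) (b : Prop) (l r : ℝ) : Prop where
  lt : l < r
  left : l ∈ Sg T z m
  right : r ∈ Sg T z m
  ty : ∀ t ∈ Ioo l r, Gen T z t → (m ∈ T (pt z t) ↔ b)

theorem gap_of_ty (h : Irr U T) {b : Prop} {t p q : ℝ} (ht : t ∈ Ty T z m b) (hp : p ∈ Sg T z m)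
    (hq : q ∈ Sg T z m) (hpt : p < t) (htq : t < q) :
    ∃ l r, p ≤ l ∧ r ≤ q ∧ Gap T z m b l r := by
  obtain ⟨l, hl⟩ : ∃ l, IsGreatest (Sg T z m ∩ Icc p t) l :=
    (isCompact_Icc.inter_left isClosed_Sg).exists_isGreatest ⟨p, hp, le_rfl, hpt.le⟩
  obtain ⟨r, hr⟩ : ∃ r, IsLeast (Sg T z m ∩ Icc t q) r :=
    (isCompact_Icc.inter_left isClosed_Sg).exists_isLeast ⟨q, hq, htq.le, le_rfl⟩
  have hlt : l < t := lt_of_le_of_ne hl.1.2.2 fun h1 => ty_notMem_Sg ht (h1 ▸ hl.1.1)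
  have htr : t < r := lt_of_le_of_ne hr.1.2.1 fun h1 => ty_notMem_Sg ht (h1 ▸ hr.1.1)
  have hno : ∀ x ∈ Ioo l r, x ∉ Sg T z m := by
    rintro x ⟨hx, hx'⟩ hxS
    rcases le_total x t with h1 | h1
    · exact absurd (hl.2 ⟨hxS, hl.1.2.1.trans hx.le, h1⟩) (not_le.2 hx)
    · exact absurd (hr.2 ⟨hxS, h1, hx'.le.trans hr.1.2.2⟩) (not_le.2 hx')
  refine ⟨l, r, hl.1.2.1, hr.1.2.2, hlt.trans htr, hl.1.1, hr.1.1, fun x hx hg => ?_⟩
  by_contra hcon
  have hx2 : x ∈ Ty T z m ¬ b := ⟨hg, by tauto⟩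
  have hpre := (isPreconnected_closed_iff.1 (isPreconnected_Ioo (a := l) (b := r)))
    (closure (Ty T z m b)) (closure (Ty T z m ¬ b)) isClosed_closure isClosed_closure (by
      intro y _
      by_cases hb : b
      · rw [ty_congr (b := b) (b' := True) (by tauto), ty_congr (b := ¬ b) (b' := False) (by tauto)]
        exact ty_or h y
      · rw [ty_congr (b := b) (b' := False) (by tauto), ty_congr (b := ¬ b) (b' := True) (by tauto)]
        exact (ty_or h y).symm) ⟨t, ⟨hlt, htr⟩, subset_closure ht⟩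
    ⟨x, hx, subset_closure hx2⟩
  obtain ⟨y, hy, hy'⟩ := hpre
  exact hno y hy ((mem_Sg_iff b).2 hy')

/-- between three switching times there is a gap of each type -/
theorem gap_three (h : Irr U T) (b : Prop) {p1 p2 p3 : ℝ} (h1 : p1 ∈ Sg T z m)
    (h2 : p2 ∈ Sg T z m) (h3 : p3 ∈ Sg T z m) (h12 : p1 < p2) (h23 : p2 < p3) :
    ∃ l r, p1 ≤ l ∧ r ≤ p3 ∧ Gap T z m b l r := by
  have h4 := Sg_sub b h2
  rw [_root_.mem_closure_iff] at h4
  obtain ⟨t, ht, ht'⟩ := h4 (Ioo p1 p3) isOpen_Ioo ⟨h12, h23⟩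
  exact gap_of_ty h ht' h1 h3 ht.1 ht.2

/-- no isolated points -/
def NoIso (S : Set ℝ) : Prop := ∀ s ∈ S, ∀ ε > 0, ∃ s' ∈ S, s' ≠ s ∧ |s' - s| < ε

theorem NoIso.split {S : Set ℝ} (hS : NoIso S) {a b : ℝ} (h : (S ∩ Ioo a b).Nonempty) :
    ∃ c ∈ Ioo a b, (S ∩ Ioo a c).Nonempty ∧ (S ∩ Ioo c b).Nonempty := by
  obtain ⟨s, hs, ha, hb⟩ := h
  obtain ⟨s', hs', hne, hd⟩ := hS s hs (min (s - a) (b - s)) (lt_min (by linarith) (by linarith))
  rw [lt_min_iff, abs_lt, abs_lt] at hd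
  rcases lt_or_gt_of_ne hne with h1 | h1
  · exact ⟨(s' + s) / 2, ⟨by linarith, by linarith⟩, ⟨s', hs', by linarith, by linarith⟩,
      ⟨s, hs, by linarith, hb⟩⟩
  · exact ⟨(s' + s) / 2, ⟨by linarith, by linarith⟩, ⟨s, hs, ha, by linarith⟩,
      ⟨s', hs', by linarith, by linarith⟩⟩

theorem gap_in (h : Irr U T) (hS : NoIso (Sg T z m)) (b : Prop) {u v : ℝ}
    (hne : (Sg T z m ∩ Ioo u v).Nonempty) : ∃ l r, u < l ∧ r < v ∧ Gap T z m b l r := by
  obtain ⟨c, hc, ⟨p1, h1⟩, h2⟩ := hS.split hne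
  obtain ⟨d, hd, ⟨p2, h3⟩, ⟨p3, h4⟩⟩ := hS.split h2
  obtain ⟨l, r, hl, hr, hg⟩ := gap_three h b h1.1 h3.1 h4.1 (h1.2.2.trans h3.2.1)
    (h3.2.2.trans h4.2.1)
  exact ⟨l, r, h1.2.1.trans_le hl, hr.trans_lt h4.2.2, hg⟩

/-- two gaps of type `b` in a portion -/
theorem two_gaps (h : Irr U T) (hS : NoIso (Sg T z m)) (b : Prop) {u v : ℝ}
    (hne : (Sg T z m ∩ Ioo u v).Nonempty) : ∃ l r l' r', u < l ∧ r < l' ∧ r' < v ∧
      Gap T z m b l r ∧ Gap T z m b l' r' := by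
  obtain ⟨c, hc, h1, h2⟩ := hS.split hne
  obtain ⟨l, r, hl, hr, hg⟩ := gap_in h hS b h1
  obtain ⟨l', r', hl', hr', hg'⟩ := gap_in h hS b h2
  exact ⟨l, r, l', r', hl, hr.trans hl', hr', hg, hg'⟩

/-- **Crossing at both types.** `w` near `z`, `w ≠ z`: for each `k`, each side `e = ±1` and each
type `b` there are a switching time `s` in the given interval and a time `τ` near `s` of type `b`
such that the point `xx z k (2 e) s τ` is at distance one from `w`. -/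
theorem exists_cross (h : Irr U T) (hS : NoIso (Sg T z m)) {u v : ℝ}
    (hne : (Sg T z m ∩ Ioo u v).Nonempty) {η : ℝ} (h0 : 0 < η) (b : Prop) {e : ℝ}
    (he : e = 1 ∨ e = -1) (k : ℝ) :
    ∀ᶠ w in 𝓝 z, w ≠ z → ∃ s ∈ Sg T z m ∩ Ioo u v, ∃ τ, |τ - s| < η ∧
      (∃ l r, τ ∈ Ioo l r ∧ ∀ t ∈ Ioo l r, Gen T z t → (m ∈ T (pt z t) ↔ b)) ∧
      dist (xx z k (2 * e) s τ) w = 1 := by
  obtain ⟨s0, hs0, hu, hv⟩ := hne
  have hne' : (Sg T z m ∩ Ioo (max u (s0 - 1)) (min v (s0 + 1))).Nonempty :=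
    ⟨s0, hs0, max_lt hu (by linarith), lt_min hv (by linarith)⟩
  obtain ⟨l, r, l', r', hl, hrl, hr', hg, hg'⟩ := two_gaps h hS b hne'
  rw [max_lt_iff] at hl
  rw [lt_min_iff] at hr'
  have hlr := hg.lt
  have hlr' := hg'.lt
  set ε := min (min η (1 / 2)) (min (r - l) (r' - l')) with hε
  have hε0 : 0 < ε := lt_min (lt_min h0 (by norm_num)) (lt_min (by linarith) (by linarith))
  have hεη : ε ≤ η := (min_le_left _ _).trans (min_le_left _ _)
  have hε1 : ε < 1 := ((min_le_left _ _).trans (min_le_right _ _)).trans_lt (by norm_num)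
  have hεr : ε ≤ r - l := (min_le_right _ _).trans (min_le_left _ _)
  have hεr' : ε ≤ r' - l' := (min_le_right _ _).trans (min_le_right _ _)
  filter_upwards [crossing he hε0 hε1 z] with w hw hwz
  -- the conclusion from a crossing on a given side of an end of a gap
  have right : ∀ {x y : ℝ}, Gap T z m b x y → ε ≤ y - x → u < x → x < v →
      (∃ ρ ∈ Ioo (0 : ℝ) ε, dist (xx z k (2 * e) x (x + ρ)) w = 1) →
      ∃ s ∈ Sg T z m ∩ Ioo u v, ∃ τ, |τ - s| < η ∧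
      (∃ l r, τ ∈ Ioo l r ∧ ∀ t ∈ Ioo l r, Gen T z t → (m ∈ T (pt z t) ↔ b)) ∧
      dist (xx z k (2 * e) s τ) w = 1 := by
    rintro x y hxy hle hux hxv ⟨ρ, ⟨h3, h4⟩, h5⟩
    refine ⟨x, ⟨hxy.left, hux, hxv⟩, x + ρ, ?_, ⟨x, y, ⟨by linarith, by linarith⟩, hxy.ty⟩, h5⟩
    rw [add_sub_cancel_left, abs_of_pos h3]; linarith
  have left : ∀ {x y : ℝ}, Gap T z m b x y → ε ≤ y - x → u < y → y < v →
      (∃ ρ ∈ Ioo (0 : ℝ) ε, dist (xx z k (2 * e) y (y - ρ)) w = 1) →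
      ∃ s ∈ Sg T z m ∩ Ioo u v, ∃ τ, |τ - s| < η ∧
      (∃ l r, τ ∈ Ioo l r ∧ ∀ t ∈ Ioo l r, Gen T z t → (m ∈ T (pt z t) ↔ b)) ∧
      dist (xx z k (2 * e) s τ) w = 1 := by
    rintro x y hxy hle hux hxv ⟨ρ, ⟨h3, h4⟩, h5⟩
    refine ⟨y, ⟨hxy.right, hux, hxv⟩, y - ρ, ?_, ⟨x, y, ⟨by linarith, by linarith⟩, hxy.ty⟩, h5⟩
    rw [sub_sub_cancel_left, abs_neg, abs_of_pos h3]; linarith
  rcases he with rfl | rfl
  · -- `i = 2`
    simp only [one_mul, mul_one] at hw right left ⊢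
    by_cases c1 : 1 < dist (xx z k 2 l l) w
    · exact right hg hεr hl.1 (by linarith) ((hw k l).1 c1)
    by_cases c2 : dist (xx z k 2 r r) w < 1
    · exact left hg hεr (by linarith) (by linarith) ((hw k r).2 c2)
    by_cases c3 : 1 < dist (xx z k 2 l' l') w
    · exact right hg' hεr' (by linarith) (by linarith) ((hw k l').1 c3)
    exfalso
    rw [xx_two] at c1 c2 c3
    exact c2 (arc_in_disc hwz (A := k + 1 + l) (B := k + 1 + r) (C := k + 1 + l') (by linarith)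
      (by linarith) (by linarith) (not_lt.1 c1) (not_lt.1 c3))
  · -- `i = -2`
    have e1 : (2 : ℝ) * -1 = -2 := by norm_num
    simp only [neg_mul, one_mul, sub_neg_eq_add, ← sub_eq_add_neg] at hw
    rw [e1] at hw right left ⊢
    by_cases c1 : 1 < dist (xx z k (-2) r r) w
    · exact left hg hεr (by linarith) (by linarith) ((hw k r).1 c1)
    by_cases c2 : dist (xx z k (-2) l' l') w < 1
    · exact right hg' hεr' (by linarith) (by linarith) ((hw k l').2 c2)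
    by_cases c3 : 1 < dist (xx z k (-2) r' r') w
    · exact left hg' hεr' (by linarith) (by linarith) ((hw k r').1 c3)
    exfalso
    rw [xx_neg_two] at c1 c2 c3
    exact c2 (arc_in_disc hwz (A := k - 1 + r) (B := k - 1 + l') (C := k - 1 + r') (by linarith)
      (by linarith) (by linarith) (not_lt.1 c1) (not_lt.1 c3))

end Vale.Agent.P032.S5.H827
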