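import Vale.Agent.P032.H89.Dich

/-!
# P032: the multi-base crossing (metric part)

`xx z k i s τ` is the point at the absolute direction `k + i + τ` of the unit circle about the
neighbour `pt z (k + s)` of `z`.  For `i = ± 2` it runs through the neighbour `pt z (k ± 1 + s)` of `z`
at `τ = s`.  A point `w` near `z` sees it at distance one for some `τ` near `s`, and the sign of
`τ - s` can be chosen with the base `s`.
-/

open Set Filter Topology Metric

noncomputable section

namespace Vale.Agent.P032.S5.H827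

open Vale.Agent.P032.Six Vale.Agent.P032.S5.H767

theorem cis_reim (t : ℝ) : (cis t).re = Real.cos t ∧ (cis t).im = Real.sin t := by
  unfold cis
  exact ⟨Complex.exp_ofReal_mul_I_re t, Complex.exp_ofReal_mul_I_im t⟩

theorem sin_sub_lt {a b c : ℝ} (hab : a < b) (hbc : b < c) (hac : c < a + Real.pi) :
    Real.sin (c - a) < Real.sin (c - b) + Real.sin (b - a) := by
  have hsA : 0 < Real.sin (b - a) :=
    Real.sin_pos_of_pos_of_lt_pi (by linarith) (by linarith)
  have hsC : 0 < Real.sin (c - b) :=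
    Real.sin_pos_of_pos_of_lt_pi (by linarith) (by linarith)
  have h1 : c - a = (c - b) + (b - a) := by ring
  have h2 : Real.cos (b - a) < 1 := by
    have := Real.cos_lt_cos_of_nonneg_of_le_pi (x := 0) (y := b - a) le_rfl (by linarith)
      (by linarith)
    rwa [Real.cos_zero] at this
  have h3 : Real.cos (c - b) < 1 := by
    have := Real.cos_lt_cos_of_nonneg_of_le_pi (x := 0) (y := c - b) le_rfl (by linarith)
      (by linarith)
    rwa [Real.cos_zero] at this
  have h4 := mul_lt_mul_of_pos_left h2 hsC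
  have h5 := mul_lt_mul_of_pos_right h3 hsA
  rw [h1, Real.sin_add]
  linarith

theorem trig_mid {p q R a b c : ℝ} (hR : 0 < R) (hab : a < b) (hbc : b < c)
    (hac : c < a + Real.pi) (hA : R ≤ p * Real.cos a + q * Real.sin a)
    (hC : R ≤ p * Real.cos c + q * Real.sin c) : R < p * Real.cos b + q * Real.sin b := by
  have hsA : 0 < Real.sin (b - a) :=
    Real.sin_pos_of_pos_of_lt_pi (by linarith) (by linarith)
  have hsC : 0 < Real.sin (c - b) :=
    Real.sin_pos_of_pos_of_lt_pi (by linarith) (by linarith)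
  have hsAC : 0 < Real.sin (c - a) :=
    Real.sin_pos_of_pos_of_lt_pi (by linarith) (by linarith)
  have hid : (p * Real.cos b + q * Real.sin b) * Real.sin (c - a) =
      (p * Real.cos a + q * Real.sin a) * Real.sin (c - b) +
      (p * Real.cos c + q * Real.sin c) * Real.sin (b - a) := by
    rw [Real.sin_sub, Real.sin_sub, Real.sin_sub]; ring
  have hadd := sin_sub_lt hab hbc hac
  by_contra hcon
  have hcon := not_lt.1 hcon
  have h1 := mul_le_mul_of_nonneg_right hcon hsAC.le
  have h2 := mul_le_mul_of_nonneg_right hA hsC.le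
  have h3 := mul_le_mul_of_nonneg_right hC hsA.le
  have h4 := mul_lt_mul_of_pos_left hadd hR
  rw [hid] at h1
  linarith

theorem dist_sq (z w : ℂ) (θ : ℝ) : dist (pt z θ) w ^ 2 =
    1 - 2 * ((w - z).re * Real.cos (θ * (Real.pi / 3)) +
      (w - z).im * Real.sin (θ * (Real.pi / 3))) + ((w - z).re ^ 2 + (w - z).im ^ 2) := by
  have h1 : pt z θ - w = cis (θ * (Real.pi / 3)) - (w - z) := by unfold pt; ring
  have h2 := Real.sin_sq_add_cos_sq (θ * (Real.pi / 3))
  rw [dist_eq_norm, h1, Complex.sq_norm, Complex.normSq_apply, Complex.sub_re, Complex.sub_im,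
    (cis_reim _).1, (cis_reim _).2]
  linear_combination h2

/-- three points of a short arc of `S(z)`: a unit disc which contains the outer two contains the
middle one in its interior, unless its centre is `z` -/
theorem arc_in_disc {z w : ℂ} (hw : w ≠ z) {A B C : ℝ} (hAB : A < B) (hBC : B < C)
    (hAC : C < A + 3) (hA : dist (pt z A) w ≤ 1) (hC : dist (pt z C) w ≤ 1) :
    dist (pt z B) w < 1 := by
  have hr : 0 < (w - z).re ^ 2 + (w - z).im ^ 2 := by
    have h0 : 0 < Complex.normSq (w - z) := Complex.normSq_pos.2 (sub_ne_zero.2 hw)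
    rw [Complex.normSq_apply] at h0
    linarith
  have hpi := Real.pi_pos
  have hA3 : dist (pt z A) w ^ 2 ≤ 1 := pow_le_one₀ dist_nonneg hA
  have hC3 : dist (pt z C) w ^ 2 ≤ 1 := pow_le_one₀ dist_nonneg hC
  rw [dist_sq] at hA3 hC3
  have h1 := trig_mid (p := (w - z).re) (q := (w - z).im)
    (R := ((w - z).re ^ 2 + (w - z).im ^ 2) / 2)
    (a := A * (Real.pi / 3)) (b := B * (Real.pi / 3)) (c := C * (Real.pi / 3)) (by linarith)
    (mul_lt_mul_of_pos_right hAB (by positivity)) (mul_lt_mul_of_pos_right hBC (by positivity))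
    (by have := mul_lt_mul_of_pos_right hAC (show 0 < Real.pi / 3 by positivity)
        linarith) (by linarith) (by linarith)
  have hB3 : dist (pt z B) w ^ 2 < 1 := by rw [dist_sq]; linarith
  by_contra hcon
  have hcon := not_lt.1 hcon
  have := one_le_pow₀ (n := 2) hcon
  linarith

/-- the point of the circle about the neighbour `pt z (k + s)` at the absolute direction
`k + i + τ` -/
def xx (z : ℂ) (k i s τ : ℝ) : ℂ := pt (pt z (k + s)) (k + i + τ)

theorem continuous_xx (z : ℂ) (k i : ℝ) : Continuous fun x : ℝ × ℝ => xx z k i x.1 x.2 := by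
  unfold xx pt
  have h1 : Continuous fun x : ℝ × ℝ => cis ((k + x.1) * (Real.pi / 3)) :=
    continuous_cis.comp (by fun_prop)
  have h2 : Continuous fun x : ℝ × ℝ => cis ((k + i + x.2) * (Real.pi / 3)) :=
    continuous_cis.comp (by fun_prop)
  exact (continuous_const.add h1).add h2

theorem xx_two (z : ℂ) (k s : ℝ) : xx z k 2 s s = pt z (k + 1 + s) := by
  unfold xx
  have h1 := pt_sum z (k + s)
  have h2 : pt (pt z (k + s)) (k + 2 + s) = pt z (k + s) + (pt z (k + s + 2) - z) := by
    unfold pt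
    have : (k + 2 + s) * (Real.pi / 3) = (k + s + 2) * (Real.pi / 3) := by ring
    rw [this]; ring
  have h3 : k + s + 1 = k + 1 + s := by ring
  rw [h3] at h1
  rw [h2]
  linear_combination h1

theorem xx_neg_two (z : ℂ) (k s : ℝ) : xx z k (-2) s s = pt z (k - 1 + s) := by
  unfold xx
  have h1 := pt_sum z (k - 2 + s)
  have h2 : pt (pt z (k + s)) (k + -2 + s) = pt z (k + s) + (pt z (k - 2 + s) - z) := by
    unfold pt
    have : (k + -2 + s) * (Real.pi / 3) = (k - 2 + s) * (Real.pi / 3) := by ring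
    rw [this]; ring
  have h3 : k - 2 + s + 1 = k - 1 + s := by ring
  have h4 : k - 2 + s + 2 = k + s := by ring
  rw [h3, h4] at h1
  rw [h2]
  linear_combination h1

theorem dist_xx (z : ℂ) (k i s τ : ℝ) :
    dist (xx z k i s τ) z ^ 2 = 2 + 2 * Real.cos ((i + (τ - s)) * (Real.pi / 3)) := by
  have h1 : xx z k i s τ - z = cis ((k + s) * (Real.pi / 3)) + cis ((k + i + τ) * (Real.pi / 3)) := by
    unfold xx pt; ring
  have h2 : (i + (τ - s)) * (Real.pi / 3) =
      (k + i + τ) * (Real.pi / 3) - (k + s) * (Real.pi / 3) := by ring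
  rw [dist_eq_norm, h1, Complex.sq_norm, Complex.normSq_apply, Complex.add_re, Complex.add_im,
    (cis_reim _).1, (cis_reim _).2, (cis_reim _).1, (cis_reim _).2, h2, Real.cos_sub]
  nlinarith [Real.sin_sq_add_cos_sq ((k + s) * (Real.pi / 3)),
    Real.sin_sq_add_cos_sq ((k + i + τ) * (Real.pi / 3))]

theorem cos_two_third : Real.cos (2 * (Real.pi / 3)) = -(1 / 2) := by
  have h1 : 2 * (Real.pi / 3) = Real.pi - Real.pi / 3 := by ring
  rw [h1, Real.cos_pi_sub, Real.cos_pi_div_three]

/-- on the side `τ > s` for `i = 2`, and `τ < s` for `i = -2`, the point is inside -/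
theorem near_in {e : ℝ} (he : e = 1 ∨ e = -1) {η : ℝ} (h0 : 0 < η) (h1 : η < 1) :
    ∃ c < (1 : ℝ), ∀ z k s, dist (xx z k (2 * e) s (s + e * η)) z ≤ c := by
  set c := Real.sqrt (2 + 2 * Real.cos ((2 + η) * (Real.pi / 3))) with hc
  have hpi := Real.pi_pos
  have hlt : Real.cos ((2 + η) * (Real.pi / 3)) < -(1 / 2) := by
    have h2 := Real.cos_lt_cos_of_nonneg_of_le_pi (x := 2 * (Real.pi / 3))
      (y := (2 + η) * (Real.pi / 3)) (by positivity) (by nlinarith) (by nlinarith)
    rwa [cos_two_third] at h2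
  refine ⟨c, ?_, fun z k s => ?_⟩
  · rw [hc, Real.sqrt_lt' one_pos]; linarith
  · rw [hc]
    refine Real.le_sqrt_of_sq_le ?_
    rw [dist_xx]
    have h3 : Real.cos ((2 * e + (s + e * η - s)) * (Real.pi / 3)) =
        Real.cos ((2 + η) * (Real.pi / 3)) := by
      rcases he with rfl | rfl
      · congr 1; ring
      · rw [← Real.cos_neg]; congr 1; ring
    rw [h3]

/-- on the side `τ < s` for `i = 2`, and `τ > s` for `i = -2`, the point is outside -/
theorem near_out {e : ℝ} (he : e = 1 ∨ e = -1) {η : ℝ} (h0 : 0 < η) (h1 : η < 1) :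
    ∃ c > (1 : ℝ), ∀ z k s, c ≤ dist (xx z k (2 * e) s (s - e * η)) z := by
  set c := Real.sqrt (2 + 2 * Real.cos ((2 - η) * (Real.pi / 3))) with hc
  have hpi := Real.pi_pos
  have hlt : -(1 / 2) < Real.cos ((2 - η) * (Real.pi / 3)) := by
    have h2 := Real.cos_lt_cos_of_nonneg_of_le_pi (x := (2 - η) * (Real.pi / 3))
      (y := 2 * (Real.pi / 3)) (by nlinarith) (by nlinarith) (by nlinarith)
    rwa [cos_two_third] at h2
  refine ⟨c, ?_, fun z k s => ?_⟩
  · rw [hc, gt_iff_lt, Real.lt_sqrt zero_le_one]; linarith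
  · rw [hc]
    refine Real.sqrt_le_iff.2 ⟨dist_nonneg, ?_⟩
    rw [dist_xx]
    have h3 : Real.cos ((2 * e + (s - e * η - s)) * (Real.pi / 3)) =
        Real.cos ((2 - η) * (Real.pi / 3)) := by
      rcases he with rfl | rfl
      · congr 1; ring
      · rw [← Real.cos_neg]; congr 1; ring
    rw [h3]

/-- **The crossing.** For `w` near `z`: if `xx s s` is outside (inside) the unit circle about `w`,
then some `τ` on the side `e` (`-e`) of `s` is on it. -/
theorem crossing {e : ℝ} (he : e = 1 ∨ e = -1) {η : ℝ} (h0 : 0 < η) (h1 : η < 1) (z : ℂ) :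
    ∀ᶠ w in 𝓝 z, ∀ k s,
      (1 < dist (xx z k (2 * e) s s) w → ∃ r ∈ Ioo (0 : ℝ) η,
        dist (xx z k (2 * e) s (s + e * r)) w = 1) ∧
      (dist (xx z k (2 * e) s s) w < 1 → ∃ r ∈ Ioo (0 : ℝ) η,
        dist (xx z k (2 * e) s (s - e * r)) w = 1) := by
  obtain ⟨c, hc1, hc⟩ := near_in he h0 h1
  obtain ⟨d, hd1, hd⟩ := near_out he h0 h1
  have hc1 : c < 1 := hc1
  filter_upwards [ball_mem_nhds z (show 0 < 1 - c by linarith),
    ball_mem_nhds z (show 0 < d - 1 by linarith)] with w hw hw' k s
  rw [mem_ball] at hw hw'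
  have hcont : ∀ f : ℝ → ℝ, Continuous f → Continuous fun r => dist (xx z k (2 * e) s (f r)) w := by
    intro f hf
    exact ((continuous_xx z k (2 * e)).comp (continuous_const.prodMk hf)).dist continuous_const
  constructor
  · intro h2
    have h3 : dist (xx z k (2 * e) s (s + e * η)) w < 1 := by
      have h4 := dist_triangle (xx z k (2 * e) s (s + e * η)) z w
      have h5 := hc z k s
      rw [dist_comm z w] at h4
      linarith
    have h4 : Continuous fun r : ℝ => dist (xx z k (2 * e) s (s + e * r)) w :=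
      hcont _ (by fun_prop)
    have h5 : (1 : ℝ) ∈ Ioo (dist (xx z k (2 * e) s (s + e * η)) w)
        (dist (xx z k (2 * e) s (s + e * 0)) w) := by
      rw [mul_zero, add_zero]; exact ⟨h3, h2⟩
    obtain ⟨r, hr, hr'⟩ := intermediate_value_Ioo' h0.le h4.continuousOn h5
    exact ⟨r, hr, hr'⟩
  · intro h2
    have h3 : 1 < dist (xx z k (2 * e) s (s - e * η)) w := by
      have h4 := dist_triangle (xx z k (2 * e) s (s - e * η)) w z
      have h5 := hd z k s
      linarith
    have h4 : Continuous fun r : ℝ => dist (xx z k (2 * e) s (s - e * r)) w :=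
      hcont _ (by fun_prop)
    have h5 : (1 : ℝ) ∈ Ioo (dist (xx z k (2 * e) s (s - e * 0)) w)
        (dist (xx z k (2 * e) s (s - e * η)) w) := by
      rw [mul_zero, sub_zero]; exact ⟨h2, h3⟩
    obtain ⟨r, hr, hr'⟩ := intermediate_value_Ioo h0.le h4.continuousOn h5
    exact ⟨r, hr, hr'⟩

end Vale.Agent.P032.S5.H827
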