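import Vale.Agent.P032.H89.Rules
import Vale.Agent.P032.S5.H827.MBGap

/-!
# P032: joint states of an alternating point whose switching directions are not isolated

`JC T z C` : the pairs `(s, τ)`, `s ∈ C`, near which the 42 letters of the seven nodes with base `s`
are constant in `(s, τ)`.  It is dense in `C × ℝ`.  By Baire there are a base `s` and a set `Q` of
states, all of which occur at times arbitrarily near `s`, and which contains all states of a portion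
of `C`; the crossing of the multi-base lemma gives the two families of states without a colour `a`.
-/

open Set Filter Topology Metric

noncomputable section

namespace Vale.Agent.P032.H827

open Vale.Agent.P032.Six Vale.Agent.P032.S5.H767 Vale.Agent.P032.S5.H827

variable {U : Fin 6 → Set ℂ} {T : ℂ → Set (Fin 6)} {z : ℂ} {m : Fin 6}

theorem sg_eq : Sg T z m = H89.Sg T z m := by
  unfold Sg H89.Sg Ty
  simp only [iff_true, iff_false]

/-- jointly constant -/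
def JC (T : ℂ → Set (Fin 6)) (z : ℂ) (C : Set ℝ) : Set (ℝ × ℝ) :=
  {x | x.1 ∈ C ∧ ∀ᶠ y in 𝓝[C ×ˢ univ] x, H89.st T z y.1 y.2 = H89.st T z x.1 x.2}

theorem continuous_npt (z : ℂ) (p : Option (Fin 6)) : Continuous fun s => H89.npt z s p := by
  rcases p with _ | k
  · exact continuous_const
  · exact (continuous_pt z).comp (by fun_prop)

theorem continuous_dir (z : ℂ) (p : Option (Fin 6)) (n : ℤ) :
    Continuous fun x : ℝ × ℝ => pt (H89.npt z x.1 p) (x.2 + n) := by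
  unfold pt
  have h1 : Continuous fun x : ℝ × ℝ => cis ((x.2 + n) * (Real.pi / 3)) :=
    continuous_cis.comp (by fun_prop)
  exact ((continuous_npt z p).comp continuous_fst).add h1

theorem st_usc (h : Irr U T) (z : ℂ) (x : ℝ × ℝ) :
    ∀ᶠ y in 𝓝 x, ∀ p j, H89.st T z y.1 y.2 p j ⊆ H89.st T z x.1 x.2 p j :=
  eventually_all.2 fun p => eventually_all.2 fun j =>
    ((continuous_dir z p j.val).tendsto x).eventually (h.nhd _)

/-- the jointly constant pairs are dense in `C × ℝ` -/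
theorem jc_dense (h : Irr U T) (z : ℂ) (C : Set ℝ) {W : Set (ℝ × ℝ)} (hW : IsOpen W)
    (hne : (W ∩ C ×ˢ univ).Nonempty) : (W ∩ JC T z C).Nonempty := by
  let f : ℝ × ℝ → ℕ := fun x => ∑ p : Option (Fin 6), ∑ j : Fin 6, (H89.st T z x.1 x.2 p j).ncard
  obtain ⟨_, ⟨x, hx, rfl⟩, hmin⟩ :=
    WellFounded.has_min (r := ((· < ·) : ℕ → ℕ → Prop)) wellFounded_lt _ (hne.image f)
  refine ⟨x, hx.1, hx.2.1, ?_⟩
  filter_upwards [mem_nhdsWithin_of_mem_nhds (st_usc h z x),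
    mem_nhdsWithin_of_mem_nhds (hW.mem_nhds hx.1), self_mem_nhdsWithin] with y h1 h2 h3
  have h4 : f x ≤ f y := not_lt.1 (hmin _ ⟨y, ⟨h2, h3⟩, rfl⟩)
  have h5 : ∀ p ∈ (Finset.univ : Finset (Option (Fin 6))), ∀ j ∈ (Finset.univ : Finset (Fin 6)),
      (H89.st T z y.1 y.2 p j).ncard ≤ (H89.st T z x.1 x.2 p j).ncard :=
    fun p _ j _ => Set.ncard_le_ncard (h1 p j) (Set.toFinite _)
  have h6 : ∀ p ∈ (Finset.univ : Finset (Option (Fin 6))),
      ∑ j : Fin 6, (H89.st T z y.1 y.2 p j).ncard ≤ ∑ j : Fin 6, (H89.st T z x.1 x.2 p j).ncard :=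
    fun p hp => Finset.sum_le_sum (h5 p hp)
  have h7 : f y = f x := le_antisymm (Finset.sum_le_sum h6) h4
  funext p j
  have h8 := (Finset.sum_eq_sum_iff_of_le h6).1 h7 p (Finset.mem_univ p)
  have h9 := (Finset.sum_eq_sum_iff_of_le (h5 p (Finset.mem_univ p))).1 h8 j (Finset.mem_univ j)
  exact Set.eq_of_subset_of_ncard_le (h1 p j) h9.ge (Set.toFinite _)

/-- generic from the six slots -/
theorem gen_of_slots {p : ℂ} {τ : ℝ} (h3 : ∀ᶠ τ' in 𝓝 τ, ∀ j : Fin 6,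
    T (pt p (τ' + (j.val : ℤ))) = T (pt p (τ + (j.val : ℤ)))) : H89.Gen T p τ := by
  have h4 : ∀ j : Fin 6, H89.Lc T p (τ + (j.val : ℤ)) := by
    intro j
    have h5 : Tendsto (fun v : ℝ => v - (j.val : ℤ)) (𝓝 (τ + (j.val : ℤ))) (𝓝 τ) := by
      have h6 : Continuous fun v : ℝ => v - ((j.val : ℤ) : ℝ) := by fun_prop
      have h7 := h6.tendsto (τ + (j.val : ℤ))
      rwa [add_sub_cancel_right] at h7
    filter_upwards [h5.eventually h3] with v hv
    have h8 := hv j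
    rwa [sub_add_cancel] at h8
  intro k
  have hk : k = (k % 6) + 6 * (k / 6) := (Int.emod_add_mul_ediv k 6).symm
  have hk0 : 0 ≤ k % 6 := Int.emod_nonneg _ (by norm_num)
  have hk6 : k % 6 < 6 := Int.emod_lt_of_pos _ (by norm_num)
  have h5 := h4 ⟨(k % 6).toNat, by omega⟩
  have h6 : (((k % 6).toNat : ℤ) : ℝ) = ((k % 6 : ℤ) : ℝ) := by
    rw [Int.toNat_of_nonneg hk0]
  have h7 := H89.lc_int (k / 6) h5
  have h8 : τ + (((k % 6).toNat : ℤ) : ℝ) + 6 * ((k / 6 : ℤ) : ℝ) = τ + k := by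
    rw [h6]
    conv_rhs => rw [hk]
    push_cast
    ring
  rw [← h8]
  exact h7

theorem jc_gen {C : Set ℝ} {x : ℝ × ℝ} (hx : x ∈ JC T z C) : H89.JGen T z x.1 x.2 := by
  have h1 : Tendsto (fun τ : ℝ => (x.1, τ)) (𝓝 x.2) (𝓝[C ×ˢ univ] x) := by
    refine tendsto_nhdsWithin_of_tendsto_nhds_of_eventually_within _ ?_
      (Eventually.of_forall fun τ => ⟨hx.1, mem_univ _⟩)
    have h2 : Continuous fun τ : ℝ => (x.1, τ) := by fun_prop
    exact h2.tendsto x.2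
  have h2 := h1.eventually hx.2
  intro p
  refine gen_of_slots ?_
  filter_upwards [h2] with τ hτ j
  exact congrFun (congrFun hτ p) j

theorem jc_nhds {C : Set ℝ} {x : ℝ × ℝ} (hx : x ∈ JC T z C) : ∀ᶠ y in 𝓝[C ×ˢ univ] x,
    y ∈ JC T z C ∧ H89.st T z y.1 y.2 = H89.st T z x.1 x.2 := by
  filter_upwards [eventually_eventually_nhdsWithin.2 hx.2, hx.2, self_mem_nhdsWithin]
    with y h1 h2 h3
  refine ⟨⟨h3.1, ?_⟩, h2⟩
  filter_upwards [h1] with y' h4
  rw [h4, h2]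

/-- the states which are present over the portion `(u, v)` at level `n` -/
def Pr (T : ℂ → Set (Fin 6)) (z : ℂ) (C : Set ℝ) (u v : ℝ) (n : ℕ) : Set H89.State :=
  {σ | ∃ x ∈ JC T z C, x.1 ∈ Ioo u v ∧ |x.2 - x.1| < 1 / ((n : ℝ) + 1) ∧
    H89.st T z x.1 x.2 = σ}

theorem Pr_mono {C : Set ℝ} {u v u' v' : ℝ} {n n' : ℕ} (hu : u ≤ u') (hv : v' ≤ v) (hn : n ≤ n') :
    Pr T z C u' v' n' ⊆ Pr T z C u v n := by
  rintro σ ⟨x, hx, h1, h2, h3⟩
  refine ⟨x, hx, ⟨hu.trans_lt h1.1, h1.2.trans_le hv⟩, h2.trans_le ?_, h3⟩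
  have : (n : ℝ) ≤ n' := by exact_mod_cast hn
  gcongr

/-- a minimal choice -/
theorem exists_min {C : Set ℝ} (hC : C.Nonempty) : ∃ u v : ℝ, ∃ n : ℕ, (C ∩ Ioo u v).Nonempty ∧
    ∀ u' v' n', u ≤ u' → v' ≤ v → n ≤ n' → (C ∩ Ioo u' v').Nonempty →
      Pr T z C u' v' n' = Pr T z C u v n := by
  let I : Set (ℝ × ℝ × ℕ) := {x | (C ∩ Ioo x.1 x.2.1).Nonempty}
  have hI : I.Nonempty := by
    obtain ⟨c, hc⟩ := hC
    exact ⟨(c - 1, c + 1, 0), c, hc, by constructor <;> simp⟩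
  obtain ⟨_, ⟨x, hx, rfl⟩, hmin⟩ :=
    WellFounded.has_min (r := ((· < ·) : ℕ → ℕ → Prop)) wellFounded_lt _
      (hI.image fun x => (Pr T z C x.1 x.2.1 x.2.2).ncard)
  refine ⟨x.1, x.2.1, x.2.2, hx, fun u' v' n' h1 h2 h3 h4 => ?_⟩
  refine Set.eq_of_subset_of_ncard_le (Pr_mono h1 h2 h3) ?_ (Set.toFinite _)
  exact not_lt.1 (hmin _ ⟨(u', v', n'), h4, rfl⟩)

/-- **Baire.** A base at which all states present in a portion occur at times near the base. -/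
theorem exists_base {C : Set ℝ} (hcl : IsClosed C) (hC : C.Nonempty) :
    ∃ s ∈ C, ∃ u v : ℝ, ∃ n : ℕ, s ∈ Ioo u v ∧
      ∀ σ ∈ Pr T z C u v n, ∃ᶠ τ in 𝓝 s, H89.JGen T z s τ ∧ H89.st T z s τ = σ := by
  obtain ⟨u, v, n, hne, hmin⟩ := exists_min (T := T) (z := z) hC
  have : CompleteSpace C := hcl.completeSpace_coe
  set V : Set C := {x | x.1 ∈ Ioo u v} with hV
  have hVo : IsOpen V := isOpen_Ioo.preimage continuous_subtype_val
  let F : Pr T z C u v n × ℕ → Set C := fun i => {x | x.1 ∈ Ioo u v ∧ ∃ τ : ℝ,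
    |τ - x.1| < 1 / ((i.2 : ℝ) + 1) ∧ ((x.1, τ) : ℝ × ℝ) ∈ JC T z C ∧ H89.st T z x.1 τ = i.1.1}
  have hFo : ∀ i, IsOpen (F i) := by
    intro i
    rw [isOpen_iff_mem_nhds]
    rintro x ⟨hx, τ, h1, h2, h3⟩
    have h4 : Tendsto (fun y : C => ((y.1, τ) : ℝ × ℝ)) (𝓝 x) (𝓝[C ×ˢ univ] (x.1, τ)) := by
      refine tendsto_nhdsWithin_of_tendsto_nhds_of_eventually_within _ ?_
        (Eventually.of_forall fun y => ⟨y.2, mem_univ _⟩)
      have h5 : Continuous fun y : C => ((y.1, τ) : ℝ × ℝ) := by fun_prop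
      exact h5.tendsto x
    have h6 := h4.eventually (jc_nhds h2)
    have h7 : ∀ᶠ y : C in 𝓝 x, |τ - y.1| < 1 / ((i.2 : ℝ) + 1) := by
      have h8 : Continuous fun y : C => |τ - y.1| := by fun_prop
      exact (h8.tendsto x).eventually (gt_mem_nhds h1)
    filter_upwards [hVo.mem_nhds hx, h6, h7] with y h8 h9 h10
    exact ⟨h8, τ, h10, h9.1, h9.2.trans h3⟩
  have hVF : ∀ i, V ⊆ closure (F i) := by
    intro i x hx
    rw [_root_.mem_closure_iff]
    intro O hO hxO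
    obtain ⟨ε, hε, hball⟩ := Metric.isOpen_iff.1 hO x hxO
    set u' := max u (x.1 - ε) with hu'
    set v' := min v (x.1 + ε) with hv'
    have hx' : x.1 ∈ Ioo u' v' := ⟨max_lt hx.1 (by linarith), lt_min hx.2 (by linarith)⟩
    have h1 := hmin u' v' (max n i.2) (le_max_left _ _) (min_le_left _ _) (le_max_left _ _)
      ⟨x.1, x.2, hx'⟩
    have h2 : i.1.1 ∈ Pr T z C u' v' (max n i.2) := by rw [h1]; exact i.1.2
    obtain ⟨y, hy, h3, h4, h5⟩ := h2
    refine ⟨⟨y.1, hy.1⟩, hball ?_, ⟨(le_max_left u _).trans_lt h3.1,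
      h3.2.trans_le (min_le_left v _)⟩, y.2, h4.trans_le ?_, hy, h5⟩
    · rw [Metric.mem_ball, Subtype.dist_eq, Real.dist_eq, abs_lt]
      have h6 := (le_max_right u _).trans_lt h3.1
      have h7 := h3.2.trans_le (min_le_right v _)
      constructor
      · show -ε < y.1 - x.1
        linarith
      · show y.1 - x.1 < ε
        linarith
    · have : ((i.2 : ℕ) : ℝ) ≤ ((max n i.2 : ℕ) : ℝ) := by exact_mod_cast le_max_right _ _
      gcongr
  have hdense : Dense (⋂ i, (F i ∪ (closure V)ᶜ)) := by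
    refine dense_iInter_of_isOpen (fun i => (hFo i).union isClosed_closure.isOpen_compl)
      fun i => ?_
    intro x
    by_cases hx : x ∈ closure V
    · exact closure_mono subset_union_left (closure_minimal (hVF i) isClosed_closure hx)
    · exact subset_closure (Or.inr hx)
  obtain ⟨c, hc⟩ := hne
  obtain ⟨s, hsV, hs⟩ := hdense.inter_open_nonempty V hVo ⟨⟨c, hc.1⟩, hc.2⟩
  refine ⟨s.1, s.2, u, v, n, hsV, fun σ hσ => ?_⟩
  rw [Metric.nhds_basis_ball.frequently_iff]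
  intro ε hε
  obtain ⟨k, hk⟩ := exists_nat_one_div_lt hε
  have h1 := mem_iInter.1 hs (⟨σ, hσ⟩, k)
  rcases h1 with h1 | h1
  · obtain ⟨-, τ, h2, h3, h4⟩ := h1
    refine ⟨τ, ?_, jc_gen h3, h4⟩
    rw [Metric.mem_ball, Real.dist_eq]
    exact h2.trans hk
  · exact absurd (subset_closure hsV) h1

/-- **The states without a colour.** -/
theorem exists_state (h : Irr U T) (hz : T z = {m}ᶜ) (hS : NoIso (H89.Sg T z m)) {u v : ℝ}
    (hne : (H89.Sg T z m ∩ Ioo u v).Nonempty) (n : ℕ) {a : Fin 6} (ha : a ≠ m) {e : ℝ}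
    (he : e = 1 ∨ e = -1) (k : Fin 6) (t : Prop) :
    ∃ x ∈ JC T z (H89.Sg T z m), x.1 ∈ Ioo u v ∧ |x.2 - x.1| < 1 / ((n : ℝ) + 1) ∧
      (m ∈ T (pt z x.2) ↔ t) ∧ a ∉ T (xx z k.val (2 * e) x.1 x.2) := by
  have hη : (0 : ℝ) < 1 / ((n : ℝ) + 1) := by positivity
  rw [← sg_eq] at hS hne ⊢
  have h1 := exists_cross h hS hne hη t he (k.val : ℝ)
  have haz : a ∈ T z := by rw [hz]; exact ha
  obtain ⟨w, hw, h2⟩ := ((h.pure z a haz).and_eventually h1).exists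
  have hwz : w ≠ z := by
    rintro rfl
    rw [hz] at hw
    have h3 := congrArg Set.ncard hw
    rw [Set.ncard_compl, Set.ncard_singleton, Set.ncard_singleton, Nat.card_eq_fintype_card,
      Fintype.card_fin] at h3
    omega
  have hwU : w ∈ U a := h.mem_of_single (i := a) (by rw [hw])
  obtain ⟨s, hs, τ, h3, ⟨l, r, h4, h5⟩, h6⟩ := h2 hwz
  -- the open set
  let g : ℝ × ℝ → ℂ := fun y => w + (xx z k.val (2 * e) y.1 y.2 - xx z k.val (2 * e) s τ)
  have hg : Continuous g := continuous_const.add ((continuous_xx z _ _).sub continuous_const)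
  let W : Set (ℝ × ℝ) := {y | y.1 ∈ Ioo u v} ∩ {y | |y.2 - y.1| < 1 / ((n : ℝ) + 1)} ∩
    {y | y.2 ∈ Ioo l r} ∩ g ⁻¹' U a
  have hWo : IsOpen W := by
    refine (((isOpen_Ioo.preimage continuous_fst).inter ?_).inter
      (isOpen_Ioo.preimage continuous_snd)).inter ((h.mx.isOpen a).preimage hg)
    exact isOpen_lt (by fun_prop) continuous_const
  have hx0 : ((s, τ) : ℝ × ℝ) ∈ W := by
    refine ⟨⟨⟨hs.2, h3⟩, h4⟩, ?_⟩
    show w + (xx z k.val (2 * e) s τ - xx z k.val (2 * e) s τ) ∈ U a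
    rwa [sub_self, add_zero]
  obtain ⟨y, ⟨⟨⟨y1, y2⟩, y3⟩, y4⟩, hy⟩ := jc_dense (T := T) h z (Sg T z m) hWo
    ⟨(s, τ), hx0, hs.1, mem_univ _⟩
  refine ⟨y, hy, y1, y2, h5 y.2 y3 ?_, fun hcon => ?_⟩
  · exact jc_gen hy none
  · have h7 : dist (g y) (xx z k.val (2 * e) y.1 y.2) = 1 := by
      rw [dist_comm, ← h6, dist_eq_norm, dist_eq_norm]
      congr 1
      show xx z k.val (2 * e) y.1 y.2 - (w + (xx z k.val (2 * e) y.1 y.2 -
        xx z k.val (2 * e) s τ)) = _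
      ring
    exact h.mx.notMem' y4 h7 (h.sub _ hcon)

/-- **Joint states.** -/
theorem exists_joint (h : Irr U T) (hz : T z = {m}ᶜ) (hne : (H89.Sg T z m).Nonempty)
    (hS : NoIso (H89.Sg T z m)) : ∃ s ∈ H89.Sg T z m, ∃ Q : Set H89.State,
      (∀ σ ∈ Q, ∃ᶠ τ in 𝓝 s, H89.JGen T z s τ ∧ H89.st T z s τ = σ) ∧
      (∀ a, a ≠ m → ∀ k (t : Prop), ∃ σ ∈ Q, (m ∈ σ none 0 ↔ t) ∧ a ∉ σ (some k) (k + 2)) ∧
      (∀ a, a ≠ m → ∀ k (t : Prop), ∃ σ ∈ Q, (m ∈ σ none 0 ↔ t) ∧ a ∉ σ (some k) (k - 2)) := by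
  obtain ⟨s, hs, u, v, n, hsI, hQ⟩ := exists_base (T := T) (z := z) (H89.isClosed_Sg T z m) hne
  have h0 : ∀ x : ℝ × ℝ, H89.st T z x.1 x.2 none 0 = T (pt z x.2) := by
    intro x
    show T (pt z (x.2 + (((0 : Fin 6).val : ℤ) : ℝ))) = _
    simp
  refine ⟨s, hs, Pr T z (H89.Sg T z m) u v n, hQ, fun a ha k t => ?_, fun a ha k t => ?_⟩
  · obtain ⟨x, hx, h1, h2, h3, h4⟩ := exists_state h hz hS ⟨s, hs, hsI⟩ n ha (e := 1)
      (Or.inl rfl) k t
    refine ⟨_, ⟨x, hx, h1, h2, rfl⟩, by rwa [h0], ?_⟩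
    rw [H89.st_eq T z x.1 x.2 (some k) (k + 2) (H89.fin_add2 k)]
    convert h4 using 3
    show pt (pt z (x.1 + ((k.val : ℤ) : ℝ))) (x.2 + (((k.val : ℤ) + 2 : ℤ) : ℝ)) = _
    unfold xx
    push_cast
    congr 1
    · congr 1; ring
    · ring
  · obtain ⟨x, hx, h1, h2, h3, h4⟩ := exists_state h hz hS ⟨s, hs, hsI⟩ n ha (e := -1)
      (Or.inr rfl) k t
    refine ⟨_, ⟨x, hx, h1, h2, rfl⟩, by rwa [h0], ?_⟩
    rw [H89.st_eq T z x.1 x.2 (some k) (k - 2) (H89.fin_sub2 k)]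
    convert h4 using 3
    show pt (pt z (x.1 + ((k.val : ℤ) : ℝ))) (x.2 + (((k.val : ℤ) - 2 : ℤ) : ℝ)) = _
    unfold xx
    push_cast
    congr 1
    · congr 1; ring
    · ring

/-- **The finite system of an alternating point without isolated switching directions.** -/
theorem exists_sys (h : Irr U T) (hmin : Mn U T)
    (hB : ∀ z v, dist z v = 1 → 4 ≤ (T v).ncard → H89.Biex T z → False)
    (hz : T z = {m}ᶜ) (hb : ¬ H89.Biex T z) (hne : (H89.Sg T z m).Nonempty)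
    (hS : NoIso (H89.Sg T z m)) : ∃ s ∈ H89.Sg T z m, ∃ Q, H89.Sys m (H89.nd T z s) Q := by
  obtain ⟨s, hs, Q, hQ, h1, h2⟩ := exists_joint h hz hne hS
  exact ⟨s, hs, Q, H89.sys_of h hmin hB hz hb hs hQ h1 h2⟩

end Vale.Agent.P032.H827
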